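import Vale.Agent.Lib.P174.Ext

/-! P174: subnormal series. -/

namespace Vale.Agent.Lib.P174

open Monoid

universe u v

section chain

variable {G : Type u} [Group G]

/-- `A` is normal in `B` with torsion-free abelian quotient (for `A ≤ B`) -/
def TFAb (A B : Subgroup G) : Prop :=
  (∀ a ∈ B, ∀ b ∈ B, a * b * a⁻¹ * b⁻¹ ∈ A) ∧
    ∀ g ∈ B, ∀ n : ℕ, n ≠ 0 → g ^ n ∈ A → g ∈ A

/-- `A` is normal in `B` and the index is a (finite) power of `p` (for `A ≤ B`) -/
def FinP (p : ℕ) (A B : Subgroup G) : Prop :=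
  (A.subgroupOf B).Normal ∧ ∃ c : ℕ, A.relIndex B = p ^ c

/-- `A` is normal in `B` with quotient abelian of exponent dividing `p` (for `A ≤ B`) -/
def ElP (p : ℕ) (A B : Subgroup G) : Prop :=
  (∀ a ∈ B, ∀ b ∈ B, a * b * a⁻¹ * b⁻¹ ∈ A) ∧ ∀ g ∈ B, g ^ p ∈ A

theorem normal_of_comm {A B : Subgroup G} (h : ∀ a ∈ B, ∀ b ∈ B, a * b * a⁻¹ * b⁻¹ ∈ A) :
    (A.subgroupOf B).Normal := by
  refine ⟨fun a ha b => ?_⟩
  rw [Subgroup.mem_subgroupOf] at ha ⊢
  have h1 := h b.1 b.2 a.1 a.2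
  have h2 := A.mul_mem h1 ha
  have h3 : (b.1 * a.1 * b.1⁻¹ * a.1⁻¹) * a.1 = b.1 * a.1 * b.1⁻¹ := by group
  rw [h3] at h2
  exact h2

theorem step_tf {k : Type} [Field k] {A B : Subgroup G} (hAB : A ≤ B) (h : TFAb A B)
    (hA : Howie k A) : Howie k B := by
  have hn : (A.subgroupOf B).Normal := normal_of_comm h.1
  refine howie_tf (A.subgroupOf B) (fun a b => ?_) (fun g n hn' hg => ?_)
    (howie_equiv (Subgroup.subgroupOfEquivOfLe hAB).symm hA)
  · rw [Subgroup.mem_subgroupOf]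
    exact h.1 a.1 a.2 b.1 b.2
  · rw [Subgroup.mem_subgroupOf] at hg ⊢
    exact h.2 g.1 g.2 n hn' hg

theorem step_el {p : ℕ} [Fact p.Prime] {A B : Subgroup G} (hAB : A ≤ B) (h : ElP p A B)
    (hA : Howie (ZMod p) A) : Howie (ZMod p) B := by
  have hn : (A.subgroupOf B).Normal := normal_of_comm h.1
  refine howie_el p (A.subgroupOf B) (fun a b => ?_) (fun g => ?_)
    (howie_equiv (Subgroup.subgroupOfEquivOfLe hAB).symm hA)
  · rw [Subgroup.mem_subgroupOf]
    exact h.1 a.1 a.2 b.1 b.2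
  · rw [Subgroup.mem_subgroupOf]
    exact h.2 g.1 g.2

theorem step_p {p : ℕ} [Fact p.Prime] {A B : Subgroup G} (hAB : A ≤ B) (h : FinP p A B)
    (hA : Howie (ZMod p) A) : Howie (ZMod p) B := by
  obtain ⟨hn, c, hc⟩ := h
  exact howie_pgroup p c B (A.subgroupOf B) hc
    (howie_equiv (Subgroup.subgroupOfEquivOfLe hAB).symm hA)

theorem chain_tf {k : Type} [Field k] (r : ℕ) (s : ℕ → Subgroup G) (hr : s r = ⊤)
    (hs : ∀ i < r, s i ≤ s (i + 1) ∧ TFAb (s i) (s (i + 1))) (h0 : Howie k (s 0)) :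
    Howie k G := by
  have h : ∀ i ≤ r, Howie k (s i) := by
    intro i
    induction i with
    | zero => intro _; exact h0
    | succ i ih => intro hi; exact step_tf (hs i hi).1 (hs i hi).2 (ih (Nat.le_of_succ_le hi))
  have h1 := h r le_rfl
  rw [hr] at h1
  exact howie_equiv Subgroup.topEquiv h1

theorem chain_p {p : ℕ} [Fact p.Prime] (r : ℕ) (s : ℕ → Subgroup G) (hr : s r = ⊤)
    (hs : ∀ i < r, s i ≤ s (i + 1) ∧
      (TFAb (s i) (s (i + 1)) ∨ ElP p (s i) (s (i + 1)) ∨ FinP p (s i) (s (i + 1))))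
    (h0 : Howie (ZMod p) (s 0)) : Howie (ZMod p) G := by
  have h : ∀ i ≤ r, Howie (ZMod p) (s i) := by
    intro i
    induction i with
    | zero => intro _; exact h0
    | succ i ih =>
      intro hi
      have h2 := ih (Nat.le_of_succ_le hi)
      rcases (hs i hi).2 with h3 | h3 | h3
      · exact step_tf (hs i hi).1 h3 h2
      · exact step_el (hs i hi).1 h3 h2
      · exact step_p (hs i hi).1 h3 h2
  have h1 := h r le_rfl
  rw [hr] at h1
  exact howie_equiv Subgroup.topEquiv h1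

end chain

end Vale.Agent.Lib.P174
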