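import Vale.Agent.Lib.P174.Lift

/-! P174: compactness, from finite systems to infinite ones. -/

namespace Vale.Agent.Lib.P174

open Monoid

universe u v

section general

/-- finite character of the normal closure -/
theorem mem_fin {A : Type*} [Group A] {I : Type*} (g : I → A) {x : A}
    (hx : x ∈ Subgroup.normalClosure (Set.range g)) :
    ∃ S : Finset I, x ∈ Subgroup.normalClosure (g '' (S : Set I)) := by
  classical
  have mono : ∀ {S T : Finset I}, S ⊆ T → Subgroup.normalClosure (g '' (S : Set I)) ≤
      Subgroup.normalClosure (g '' (T : Set I)) := fun h =>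
    Subgroup.normalClosure_mono (Set.image_mono (Finset.coe_subset.2 h))
  let K : Subgroup A :=
    { carrier := {x | ∃ S : Finset I, x ∈ Subgroup.normalClosure (g '' (S : Set I))}
      one_mem' := ⟨∅, one_mem _⟩
      mul_mem' := by
        rintro a b ⟨S, hS⟩ ⟨T, hT⟩
        exact ⟨S ∪ T, mul_mem (mono Finset.subset_union_left hS)
          (mono Finset.subset_union_right hT)⟩
      inv_mem' := by
        rintro a ⟨S, hS⟩
        exact ⟨S, inv_mem hS⟩ }
  have hK : K.Normal := ⟨by
    rintro a ⟨S, hS⟩ b
    exact ⟨S, Subgroup.normalClosure_normal.conj_mem a hS b⟩⟩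
  have h : Subgroup.normalClosure (Set.range g) ≤ K := by
    apply Subgroup.normalClosure_le_normal
    rintro _ ⟨i, rfl⟩
    exact ⟨{i}, Subgroup.subset_normalClosure ⟨i, by simp, rfl⟩⟩
  exact h hx

end general

section incl

variable {N : Type u} [Group N] {J J' J'' : Type*}

/-- change of unknowns -/
def incl (e : J' → J) : GF N J' →* GF N J := Coprod.map (MonoidHom.id N) (FreeGroup.map e)

theorem incl_inl (e : J' → J) (n : N) : incl e (Coprod.inl n : GF N J') = Coprod.inl n := rfl

theorem incl_inr (e : J' → J) (j : J') :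
    incl e (Coprod.inr (FreeGroup.of j) : GF N J') = Coprod.inr (FreeGroup.of (e j)) := by
  unfold incl
  rw [Coprod.map_apply_inr, FreeGroup.map.of]

theorem incl_incl (e : J' → J) (e' : J'' → J') (x : GF N J'') :
    incl e (incl e' x) = incl (e ∘ e') x := by
  have h : (incl e).comp (incl e') = (incl (e ∘ e') : GF N J'' →* GF N J) := by
    apply gf_hom_ext
    · intro g; rfl
    · intro j
      rw [MonoidHom.comp_apply, incl_inr, incl_inr, incl_inr]
      rfl
  exact DFunLike.congr_fun h x

theorem eval_incl {H : Type*} [Group H] (ι : N →* H) (h : J → H) (e : J' → J) (x : GF N J') :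
    eval ι h (incl e x) = eval ι (h ∘ e) x := by
  have h : (eval ι h).comp (incl e) = (eval ι (h ∘ e) : GF N J' →* H) := by
    apply gf_hom_ext
    · intro g; rfl
    · intro j
      rw [MonoidHom.comp_apply, incl_inr, eval_inr, eval_inr]
      rfl
  exact DFunLike.congr_fun h x

theorem eps_incl (R : Type) [CommRing R] (e : J' → J) (x : GF N J') :
    Multiplicative.toAdd (eps R (incl e x)) =
      Finsupp.mapDomain e (Multiplicative.toAdd (eps R x)) := by
  have h : (eps R).comp (incl e) = (AddMonoidHom.toMultiplicative
      (Finsupp.mapDomain.addMonoidHom e : (J' →₀ R) →+ (J →₀ R))).comp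
      (eps R : GF N J' →* Multiplicative (J' →₀ R)) := by
    apply gf_hom_ext
    · intro g
      rw [MonoidHom.comp_apply, MonoidHom.comp_apply, incl_inl, eps_inl, eps_inl, map_one]
    · intro j
      rw [MonoidHom.comp_apply, MonoidHom.comp_apply, incl_inr, eps_inr, eps_inr]
      apply Multiplicative.toAdd.injective
      simp [Finsupp.mapDomain_single]
  have h2 := DFunLike.congr_fun h x
  exact h2

/-- a word involves finitely many unknowns -/
theorem mem_incl {J : Type*} (x : GF N J) :
    ∃ S : Finset J, x ∈ (incl (Subtype.val : {j // j ∈ S} → J) : GF N {j // j ∈ S} →* _).range := by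
  classical
  have mono : ∀ {S T : Finset J}, S ⊆ T → ∀ {y : GF N J},
      y ∈ (incl (Subtype.val : {j // j ∈ S} → J) : GF N {j // j ∈ S} →* _).range →
      y ∈ (incl (Subtype.val : {j // j ∈ T} → J) : GF N {j // j ∈ T} →* _).range := by
    rintro S T h y ⟨z, rfl⟩
    exact ⟨incl (fun j : {j // j ∈ S} => (⟨j.1, h j.2⟩ : {j // j ∈ T})) z, by rw [incl_incl]; rfl⟩
  let K : Subgroup (GF N J) :=
    { carrier := {x | ∃ S : Finset J,
        x ∈ (incl (Subtype.val : {j // j ∈ S} → J) : GF N {j // j ∈ S} →* _).range}
      one_mem' := ⟨∅, one_mem _⟩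
      mul_mem' := by
        rintro a b ⟨S, hS⟩ ⟨T, hT⟩
        exact ⟨S ∪ T, mul_mem (mono Finset.subset_union_left hS)
          (mono Finset.subset_union_right hT)⟩
      inv_mem' := by
        rintro a ⟨S, hS⟩
        exact ⟨S, inv_mem hS⟩ }
  have hinl : ∀ n : N, Coprod.inl n ∈ K := fun n => ⟨∅, ⟨Coprod.inl n, rfl⟩⟩
  have hof : ∀ j : J, Coprod.inr (FreeGroup.of j) ∈ K := fun j =>
    ⟨{j}, ⟨Coprod.inr (FreeGroup.of ⟨j, by simp⟩), by rw [incl_inr]⟩⟩
  have hinr : ∀ n : FreeGroup J, Coprod.inr n ∈ K := by
    intro n
    induction n using FreeGroup.induction_on with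
    | C1 => rw [map_one]; exact one_mem _
    | of j => exact hof j
    | inv_of j _ => rw [map_inv]; exact inv_mem (hof j)
    | mul a b ha hb => rw [map_mul]; exact mul_mem ha hb
  have hall : x ∈ K := by
    induction x using Coprod.induction_on with
    | inl m => exact hinl m
    | inr n => exact hinr n
    | mul a b ha hb => exact mul_mem ha hb
  exact hall

end incl

section compact

variable {k : Type} [Field k] {N : Type u} [Group N]

theorem solvable_all (hN : Howie k N) {I : Type*} {J : Type u} (g : I → GF N J)
    (hg : LinearIndependent k (fun i => Multiplicative.toAdd (eps k (g i)))) : Solvable g := by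
  classical
  set R := Subgroup.normalClosure (Set.range g) with hR
  refine ⟨GF N J ⧸ R, inferInstance, (QuotientGroup.mk' R).comp Coprod.inl,
    fun j => QuotientGroup.mk' R (Coprod.inr (FreeGroup.of j)), ?_, ?_⟩
  · rw [injective_iff_map_eq_one]
    intro n hn
    have hn2 : (Coprod.inl n : GF N J) ∈ R := (QuotientGroup.eq_one_iff _).1 hn
    obtain ⟨S, hS⟩ := mem_fin g hn2
    choose J0 hJ0 using fun i => mem_incl (g i)
    set J1 : Finset J := S.biUnion J0 with hJ1
    have hu : ∀ i : {i // i ∈ S}, ∃ y : GF N {j // j ∈ J1},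
        incl (Subtype.val : {j // j ∈ J1} → J) y = g i := by
      intro i
      obtain ⟨z, hz⟩ := hJ0 i.1
      refine ⟨incl (fun j : {j // j ∈ J0 i.1} => (⟨j.1, Finset.mem_biUnion.2 ⟨i.1, i.2, j.2⟩⟩ :
        {j // j ∈ J1})) z, ?_⟩
      rw [incl_incl, ← hz]
      rfl
    choose u' hu' using hu
    set e1 := S.equivFin with he1
    set e2 := J1.equivFin with he2
    set w : Fin S.card → GF N (Fin J1.card) := fun a => incl e2 (u' (e1.symm a)) with hw
    have hT : LinearIndependent k (fun a : Fin S.card => fun j =>
        (Multiplicative.toAdd (eps k (w a)) j : k)) := by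
      set T : (Fin J1.card → k) →ₗ[k] (J →₀ k) :=
        (Finsupp.lmapDomain k k (fun b : Fin J1.card => ((e2.symm b).1 : J))) ∘ₗ
          (Finsupp.linearEquivFunOnFinite k k (Fin J1.card)).symm.toLinearMap with hTd
      apply LinearIndependent.of_comp T
      have h1 : (T ∘ fun a : Fin S.card => fun j => (Multiplicative.toAdd (eps k (w a)) j : k)) =
          (fun i => Multiplicative.toAdd (eps k (g i))) ∘ fun a => (e1.symm a).1 := by
        funext a
        simp only [Function.comp_apply]
        have h2 : (Finsupp.linearEquivFunOnFinite k k (Fin J1.card)).symm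
            (fun j => (Multiplicative.toAdd (eps k (w a)) j : k)) =
            Multiplicative.toAdd (eps k (w a)) := by
          ext j; simp
        rw [hTd, LinearMap.comp_apply]
        have h3 : (Finsupp.linearEquivFunOnFinite k k (Fin J1.card)).symm.toLinearMap
            (fun j => (Multiplicative.toAdd (eps k (w a)) j : k)) =
            Multiplicative.toAdd (eps k (w a)) := h2
        rw [h3, Finsupp.lmapDomain_apply, ← eps_incl, hw]
        dsimp only
        have h7 : (fun b : Fin J1.card => ((e2.symm b).1 : J)) ∘ e2 = Subtype.val := by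
          funext j; simp
        rw [incl_incl, ← hu', h7]
      rw [h1]
      exact hg.comp _ (Subtype.val_injective.comp e1.symm.injective)
    have hns : Nonsing k w := by
      unfold Nonsing
      have h8 : (fun i => fun j => ((expo (w i) j : ℤ) : k)) =
          (fun a : Fin S.card => fun j => (Multiplicative.toAdd (eps k (w a)) j : k)) := by
        funext a j
        rw [eps_eq]
      rw [h8]
      exact hT
    obtain ⟨H', hH', ι', h', hι', hw'⟩ := hN _ _ w hns
    set E : GF N J →* H' := eval ι' (fun j => if hj : j ∈ J1 then h' (e2 ⟨j, hj⟩) else 1) with hE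
    have hEu : ∀ i : {i // i ∈ S}, E (g i) = 1 := by
      intro i
      rw [← hu', hE, eval_incl]
      have h4 : ((fun j => if hj : j ∈ J1 then h' (e2 ⟨j, hj⟩) else 1) ∘
          (Subtype.val : {j // j ∈ J1} → J)) = h' ∘ e2 := by
        funext j
        simp
      rw [h4, ← eval_incl]
      have h5 := hw' (e1 i)
      rw [hw] at h5
      dsimp only at h5
      rw [Equiv.symm_apply_apply] at h5
      exact h5
    have hker : Subgroup.normalClosure (g '' (S : Set I)) ≤ E.ker := by
      apply Subgroup.normalClosure_le_normal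
      rintro _ ⟨i, hi, rfl⟩
      exact hEu ⟨i, hi⟩
    have h6 : ι' n = 1 := hker hS
    exact (map_eq_one_iff ι' hι').1 h6
  · intro i
    have h : eval ((QuotientGroup.mk' R).comp Coprod.inl)
        (fun j => QuotientGroup.mk' R (Coprod.inr (FreeGroup.of j))) = QuotientGroup.mk' R := by
      apply gf_hom_ext
      · intro n; rfl
      · intro j; rw [eval_inr]
    rw [h]
    exact (QuotientGroup.eq_one_iff _).2 (Subgroup.subset_normalClosure ⟨i, rfl⟩)

end compact

end Vale.Agent.Lib.P174
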