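import Mathlib

/-! P174: systems of equations over groups. -/

namespace Vale.Agent.Lib.P174

open Monoid

universe u v

/-- the free product `G * F(J)` of `G` and the free group on `J` -/
abbrev GF (G : Type u) [Group G] (J : Type v) := Coprod G (FreeGroup J)

/-- the homomorphism `G * F(J) → R^(J)` that kills `G` and sends `x_j` to the basis vector `e_j` -/
noncomputable def eps (R : Type) [CommRing R] {G : Type u} [Group G] {J : Type v} :
    GF G J →* Multiplicative (J →₀ R) :=
  Coprod.lift 1 (FreeGroup.lift fun j => Multiplicative.ofAdd (Finsupp.single j 1))

/-- exponent sum of `x_j` in `w` -/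
noncomputable def expo {G : Type u} [Group G] {J : Type v} (w : GF G J) (j : J) : ℤ :=
  Multiplicative.toAdd (eps ℤ w) j

/-- value of `w` at `ι` on `G` and `h` on the unknowns -/
def eval {G : Type u} [Group G] {J : Type v} {H : Type*} [Group H] (ι : G →* H) (h : J → H) :
    GF G J →* H := Coprod.lift ι (FreeGroup.lift h)

/-- the system `w` is solvable over `G`: it has a solution in a group containing `G` -/
def Solvable {G : Type u} [Group G] {I : Type*} {J : Type v} (w : I → GF G J) : Prop :=
  ∃ (H : Type u) (_ : Group H) (ι : G →* H) (h : J → H),
    Function.Injective ι ∧ ∀ i, eval ι h (w i) = 1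

/-- the rows of the exponent-sum matrix are linearly independent over `k` -/
def Nonsing (k : Type) [Field k] {G : Type u} [Group G] {I : Type*} {J : Type v}
    (w : I → GF G J) : Prop :=
  LinearIndependent k (fun i => fun j => ((expo (w i) j : ℤ) : k))

/-- every finite system over `G` that is nonsingular over `k` is solvable over `G` -/
def Howie (k : Type) [Field k] (G : Type u) [Group G] : Prop :=
  ∀ (m n : ℕ) (w : Fin m → GF G (Fin n)), Nonsing k w → Solvable w

end Vale.Agent.Lib.P174
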