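import Vale.Agent.Lib.P174.Main

/-! P174: extensions by torsion-free abelian groups and by finite `p`-groups. -/

namespace Vale.Agent.Lib.P174

open Monoid

universe u v

section ext

variable {G : Type u} [Group G]

/-- the quotient as a commutative group -/
@[reducible] def quotComm (N : Subgroup G) [N.Normal] (hab : ∀ a b : G, a * b * a⁻¹ * b⁻¹ ∈ N) :
    CommGroup (G ⧸ N) :=
  { (inferInstance : Group (G ⧸ N)) with
    mul_comm := by
      intro a b
      induction a using QuotientGroup.induction_on
      induction b using QuotientGroup.induction_on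
      rename_i x y
      rw [← QuotientGroup.mk_mul, ← QuotientGroup.mk_mul, QuotientGroup.eq]
      have h := hab y⁻¹ x⁻¹
      have h2 : (x * y)⁻¹ * (y * x) = y⁻¹ * x⁻¹ * y⁻¹⁻¹ * x⁻¹⁻¹ := by group
      rw [h2]; exact h }

/-- extensions with torsion-free abelian quotient -/
theorem howie_tf {k : Type} [Field k] (N : Subgroup G) [N.Normal]
    (hab : ∀ a b : G, a * b * a⁻¹ * b⁻¹ ∈ N)
    (htf : ∀ (g : G) (n : ℕ), n ≠ 0 → g ^ n ∈ N → g ∈ N) (h : Howie k N) : Howie k G := by
  let _ : CommGroup (G ⧸ N) := quotComm N hab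
  have : IsAddTorsionFree (Additive (G ⧸ N)) := by
    refine ⟨fun n hn => ?_⟩
    intro a b hab'
    have h1 : (Additive.toMul a) ^ n = (Additive.toMul b) ^ n := hab'
    have h2 : (Additive.toMul a / Additive.toMul b) ^ n = 1 := by
      rw [div_pow, h1, div_self']
    obtain ⟨x, hx⟩ := QuotientGroup.mk_surjective (Additive.toMul a / Additive.toMul b)
    rw [← hx] at h2
    have h3 : x ^ n ∈ N := (QuotientGroup.eq_one_iff _).1 (by rw [QuotientGroup.mk_pow]; exact h2)
    have h4 : (QuotientGroup.mk x : G ⧸ N) = 1 := (QuotientGroup.eq_one_iff _).2 (htf x n hn h3)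
    rw [hx] at h4
    exact Additive.toMul.injective (div_eq_one.1 h4)
  let φ : G →* Multiplicative (DivisibleHull (Additive (G ⧸ N))) :=
    { toFun := fun g => Multiplicative.ofAdd
        (DivisibleHull.coeAddMonoidHom (Additive (G ⧸ N)) (Additive.ofMul (g : G ⧸ N)))
      map_one' := by
        rw [QuotientGroup.mk_one, ofMul_one, map_zero, ofAdd_zero]
      map_mul' := fun a b => by
        rw [QuotientGroup.mk_mul, ofMul_mul, map_add, ofAdd_add] }
  have hker : φ.ker = N := by
    ext g
    rw [MonoidHom.mem_ker]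
    constructor
    · intro hg
      have h5 : DivisibleHull.coeAddMonoidHom (Additive (G ⧸ N)) (Additive.ofMul (g : G ⧸ N)) =
          DivisibleHull.coeAddMonoidHom (Additive (G ⧸ N)) 0 := by
        rw [map_zero]
        exact Multiplicative.ofAdd.injective hg
      have h6 : (Additive.ofMul (g : G ⧸ N)) = 0 := DivisibleHull.coe_injective h5
      exact (QuotientGroup.eq_one_iff g).1 h6
    · intro hg
      have h7 : (g : G ⧸ N) = 1 := (QuotientGroup.eq_one_iff g).2 hg
      show Multiplicative.ofAdd
        (DivisibleHull.coeAddMonoidHom (Additive (G ⧸ N)) (Additive.ofMul (g : G ⧸ N))) = 1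
      rw [h7, ofMul_one, map_zero, ofAdd_zero]
  refine howie_of_hom (K := ℚ) (star_of_domain k _) (fun m n a ha => indep_rat a ha) φ ?_
  rw [hker]
  exact h

/-- extensions with quotient abelian of exponent `p` -/
theorem howie_el (p : ℕ) [hp : Fact p.Prime] (N : Subgroup G) [N.Normal]
    (hab : ∀ a b : G, a * b * a⁻¹ * b⁻¹ ∈ N) (hexp : ∀ g : G, g ^ p ∈ N)
    (h : Howie (ZMod p) N) : Howie (ZMod p) G := by
  let _ : CommGroup (G ⧸ N) := quotComm N hab
  have hpow : ∀ x : G ⧸ N, x ^ p = 1 := by
    intro x
    induction x using QuotientGroup.induction_on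
    rename_i g
    rw [← QuotientGroup.mk_pow]
    exact (QuotientGroup.eq_one_iff _).2 (hexp g)
  let _ : Module (ZMod p) (Additive (G ⧸ N)) :=
    AddCommGroup.zmodModule (fun x => hpow (Additive.toMul x))
  let φ : G →* Multiplicative (Additive (G ⧸ N)) :=
    { toFun := fun g => Multiplicative.ofAdd (Additive.ofMul (g : G ⧸ N))
      map_one' := rfl
      map_mul' := fun a b => rfl }
  have hker : φ.ker = N := by
    ext g
    rw [MonoidHom.mem_ker]
    exact QuotientGroup.eq_one_iff g
  have hstar : Star (ZMod p) (Multiplicative (Additive (G ⧸ N))) :=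
    star_of_pow (ZMod p) (Multiplicative (Additive (G ⧸ N))) p fun q =>
      congrArg (fun x : G ⧸ N => Multiplicative.ofAdd (Additive.ofMul x))
        (hpow (Additive.toMul (Multiplicative.toAdd q)))
  refine howie_of_hom (K := ZMod p) hstar (fun m n a ha => ha) φ ?_
  rw [hker]
  exact h

/-- extensions with quotient a finite `p`-group -/
theorem howie_pgroup (p : ℕ) [hp : Fact p.Prime] : ∀ (c : ℕ) (G : Type u) [Group G]
    (N : Subgroup G) [N.Normal], Nat.card (G ⧸ N) = p ^ c → Howie (ZMod p) N →
    Howie (ZMod p) G := by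
  intro c
  induction c with
  | zero =>
    intro G _ N _ hc hN
    have h1 : N = ⊤ := by
      rw [← Subgroup.index_eq_one]
      rw [pow_zero] at hc
      exact hc
    subst h1
    exact howie_equiv Subgroup.topEquiv hN
  | succ c ih =>
    intro G _ N _ hc hN
    have hfin : Finite (G ⧸ N) := Nat.finite_of_card_ne_zero (by
      rw [hc]; exact pow_ne_zero _ hp.out.ne_zero)
    obtain ⟨H, hH⟩ := Sylow.exists_subgroup_card_pow_prime (G := G ⧸ N) p (n := c)
      (by rw [hc]; exact pow_dvd_pow p (Nat.le_succ c))
    have hHi : H.index = p := by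
      have h2 := H.card_mul_index
      rw [hH, hc, pow_succ] at h2
      exact Nat.eq_of_mul_eq_mul_left (pow_pos hp.out.pos c) h2
    have hHn : H.Normal := Subgroup.normal_of_index_eq_minFac_card (by
      rw [hHi, hc, hp.out.pow_minFac (Nat.succ_ne_zero c)])
    set M : Subgroup G := H.comap (QuotientGroup.mk' N) with hM
    have hMn : M.Normal := hHn.comap _
    have hMi : M.index = p := by
      rw [hM, Subgroup.index_comap_of_surjective H (QuotientGroup.mk'_surjective N), hHi]
    have hNM : N ≤ M := by
      intro x hx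
      rw [hM, Subgroup.mem_comap]
      have : QuotientGroup.mk' N x = 1 := (QuotientGroup.eq_one_iff x).2 hx
      rw [this]
      exact one_mem H
    have hcardM : Nat.card (G ⧸ M) = p := hMi
    have hfM : Finite (G ⧸ M) := Nat.finite_of_card_ne_zero (by
      rw [hcardM]; exact hp.out.ne_zero)
    have hcyc : IsCyclic (G ⧸ M) := isCyclic_of_prime_card hcardM
    have hab : ∀ a b : G, a * b * a⁻¹ * b⁻¹ ∈ M := by
      intro a b
      rw [← QuotientGroup.eq_one_iff]
      have h3 : (QuotientGroup.mk a : G ⧸ M) * QuotientGroup.mk b =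
          QuotientGroup.mk b * QuotientGroup.mk a :=
        (IsCyclic.commGroup (α := G ⧸ M)).mul_comm _ _
      rw [QuotientGroup.mk_mul, QuotientGroup.mk_mul, QuotientGroup.mk_mul, h3,
        QuotientGroup.mk_inv, QuotientGroup.mk_inv]
      group
    have hexp : ∀ g : G, g ^ p ∈ M := by
      intro g
      rw [← QuotientGroup.eq_one_iff, QuotientGroup.mk_pow, ← hcardM]
      exact pow_card_eq_one'
    refine howie_el p M hab hexp ?_
    have hN' : (N.subgroupOf M).Normal := Subgroup.normal_subgroupOf
    refine ih M (N.subgroupOf M) ?_ (howie_equiv (Subgroup.subgroupOfEquivOfLe hNM).symm hN)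
    have h4 : N.relIndex M * M.index = N.index := Subgroup.relIndex_mul_index hNM
    have h5 : N.index = p ^ (c + 1) := hc
    rw [hMi, h5, pow_succ] at h4
    exact Nat.eq_of_mul_eq_mul_right hp.out.pos h4

end ext

end Vale.Agent.Lib.P174
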