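import Vale.Agent.Lib.P174.Lift

/-! P174: the lifted system is nonsingular. -/

namespace Vale.Agent.Lib.P174

open Monoid

universe u v

section star

variable (k : Type) [Field k] (Q : Type u) [CommGroup Q]

/-- augmentation -/
noncomputable def aug : MonoidAlgebra k Q →ₐ[k] k := MonoidAlgebra.lift k k Q 1

variable {k Q} in
theorem aug_single (q : Q) (a : k) : aug k Q (MonoidAlgebra.single q a) = a := by
  unfold aug
  rw [MonoidAlgebra.lift_single]
  simp

/-- elements of augmentation one are regular -/
def Star : Prop := ∀ x y : MonoidAlgebra k Q, aug k Q x = 1 → x * y = 0 → y = 0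

theorem star_of_domain [NoZeroDivisors (MonoidAlgebra k Q)] : Star k Q := by
  intro x y hx hxy
  rcases mul_eq_zero.1 hxy with h | h
  · rw [h, map_zero] at hx
    exact absurd hx.symm one_ne_zero
  · exact h

theorem star_of_pow (p : ℕ) [hp : Fact p.Prime] [CharP k p] (hQ : ∀ q : Q, q ^ p = 1) :
    Star k Q := by
  haveI : CharP (MonoidAlgebra k Q) p :=
    charP_of_injective_algebraMap (algebraMap k (MonoidAlgebra k Q)).injective p
  have h : ∀ x : MonoidAlgebra k Q, x ^ p = MonoidAlgebra.single 1 ((aug k Q x) ^ p) := by
    intro x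
    induction x using MonoidAlgebra.induction_linear with
    | zero => rw [map_zero, zero_pow hp.out.ne_zero, zero_pow hp.out.ne_zero]; simp
    | add x y hx hy => rw [add_pow_char, hx, hy, map_add, add_pow_char, MonoidAlgebra.single_add]
    | single q a => rw [MonoidAlgebra.single_pow, hQ, aug_single]
  intro x y hx hxy
  have h1 : x ^ p = 1 := by rw [h, hx, one_pow]; rfl
  calc y = x ^ p * y := by rw [h1, one_mul]
    _ = x ^ (p - 1) * (x * y) := by
        rw [← mul_assoc, ← pow_succ, Nat.sub_add_cancel hp.out.one_le]
    _ = 0 := by rw [hxy, mul_zero]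

end star

section comp

variable {k : Type} [Field k] {Q : Type u} [CommGroup Q] {J : Type v}

open Classical in
/-- the `j`-th component, as an element of the group ring -/
noncomputable def cmp (j : J) : (J × Q →₀ k) →ₗ[k] MonoidAlgebra k Q :=
  Finsupp.linearCombination k
    (fun p : J × Q => if p.1 = j then MonoidAlgebra.single p.2 (1 : k) else 0)

open Classical in
theorem cmp_single (j : J) (p : J × Q) (a : k) :
    cmp j (Finsupp.single p a) = if p.1 = j then MonoidAlgebra.single p.2 a else 0 := by
  unfold cmp
  rw [Finsupp.linearCombination_single]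
  split
  · simp
  · simp

theorem cmp_tr (j : J) (q : Q) (x : J × Q →₀ k) :
    cmp j (tr k q x) = MonoidAlgebra.single q (1 : k) * cmp j x := by
  classical
  induction x using Finsupp.induction_linear with
  | zero => simp
  | add x y hx hy => rw [map_add, map_add, map_add, hx, hy, mul_add]
  | single p a =>
    have h : tr k q (Finsupp.single p a) = Finsupp.single (p.1, q * p.2) a := by
      simp [tr, Finsupp.mapDomain_single]
    rw [h, cmp_single, cmp_single]
    dsimp only
    by_cases hp : p.1 = j
    · rw [if_pos hp, if_pos hp, MonoidAlgebra.single_mul_single, one_mul]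
    · rw [if_neg hp, if_neg hp, mul_zero]

theorem aug_cmp (j : J) (x : J × Q →₀ k) :
    aug k Q (cmp j x) = Finsupp.mapDomain Prod.fst x j := by
  classical
  induction x using Finsupp.induction_linear with
  | zero => simp
  | add x y hx hy => rw [map_add, map_add, hx, hy, Finsupp.mapDomain_add, Finsupp.add_apply]
  | single p a =>
    rw [cmp_single, Finsupp.mapDomain_single, Finsupp.single_apply]
    by_cases hp : p.1 = j
    · rw [if_pos hp, if_pos hp, aug_single]
    · rw [if_neg hp, if_neg hp, map_zero]

theorem coeff_cmp (j : J) (s : Q) (x : J × Q →₀ k) : (cmp j x).coeff s = x (j, s) := by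
  classical
  induction x using Finsupp.induction_linear with
  | zero => simp
  | add x y hx hy => rw [map_add, MonoidAlgebra.coeff_add, Finsupp.add_apply, hx, hy,
      Finsupp.add_apply]
  | single p a =>
    obtain ⟨j', s'⟩ := p
    rw [cmp_single, Finsupp.single_apply]
    dsimp only
    by_cases hp : j' = j
    · subst hp
      rw [if_pos rfl]
      simp [MonoidAlgebra.coeff_single, Finsupp.single_apply]
    · rw [if_neg hp, if_neg (fun h => hp (Prod.mk.inj h).1)]
      simp

theorem cmp_ext {l : J × Q →₀ k} (h : ∀ j, cmp j l = 0) : l = 0 := by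
  ext ⟨j, s⟩
  rw [← coeff_cmp, h]
  rfl

end comp

section main

variable {G : Type u} [Group G] {Q : Type u} [CommGroup Q] {φ : G →* Q} {σ : Q → G}
  (hσ : ∀ s g, φ (σ s) * φ g = φ (σ (s * φ g))) {J : Type v} [Fintype J] (f : J → Q)
  {k : Type} [Field k] {I : Type v} [Fintype I] [DecidableEq I] (w : I → GF G J)

/-- the lifted system has linearly independent rows -/
theorem lift_indep (hQ : Star k Q) (A' : J → I → k)
    (hA : ∀ i i', ∑ j, Multiplicative.toAdd (eps k (w i)) j * A' j i' = if i = i' then 1 else 0) :
    LinearIndependent k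
      (fun p : I × Q => Multiplicative.toAdd ((dd hσ f k (w p.1)).l p.2)) := by
  classical
  rw [linearIndependent_iff]
  intro l hl
  set e : I → (J × Q →₀ k) := fun i => Multiplicative.toAdd ((dd hσ f k (w i)).l 1) with he
  set L : I → MonoidAlgebra k Q := fun i => cmp i l with hL
  set B : Matrix I I (MonoidAlgebra k Q) := fun i i' => ∑ j, A' j i' • cmp j (e i) with hB
  have key : ∀ (j : J) (l : I × Q →₀ k),
      cmp j (Finsupp.linearCombination k
        (fun p : I × Q => Multiplicative.toAdd ((dd hσ f k (w p.1)).l p.2)) l) =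
      ∑ i, cmp i l * cmp j (e i) := by
    intro j l
    induction l using Finsupp.induction_linear with
    | zero => simp
    | add x y hx hy =>
      rw [map_add, map_add, hx, hy, ← Finset.sum_add_distrib]
      exact Finset.sum_congr rfl fun i _ => by rw [map_add, add_mul]
    | single p a =>
      rw [Finsupp.linearCombination_single, map_smul, dd_shift, cmp_tr]
      have h1 : ∀ i, cmp i (Finsupp.single p a) * cmp j (e i) =
          if p.1 = i then a • (MonoidAlgebra.single p.2 (1 : k) * cmp j (e i)) else 0 := by
        intro i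
        rw [cmp_single]
        by_cases hp : p.1 = i
        · rw [if_pos hp, if_pos hp, ← smul_mul_assoc]
          congr 1
          simp
        · rw [if_neg hp, if_neg hp, zero_mul]
      rw [Finset.sum_congr rfl fun i _ => h1 i, Finset.sum_ite_eq]
      simp [he]
  have hLB : Matrix.vecMul L B = 0 := by
    funext i'
    have h1 : ∀ i, L i * B i i' = ∑ j, A' j i' • (cmp i l * cmp j (e i)) := by
      intro i
      rw [hB, hL, Finset.mul_sum]
      exact Finset.sum_congr rfl fun j _ => mul_smul_comm _ _ _
    show ∑ i, L i * B i i' = 0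
    rw [Finset.sum_congr rfl fun i _ => h1 i, Finset.sum_comm]
    refine Finset.sum_eq_zero fun j _ => ?_
    rw [← Finset.smul_sum, ← key, hl, map_zero, smul_zero]
  have hdet : aug k Q B.det = 1 := by
    have h1 : aug k Q B.det = ((aug k Q : MonoidAlgebra k Q →+* k).mapMatrix B).det :=
      RingHom.map_det _ _
    rw [h1]
    have h2 : (aug k Q : MonoidAlgebra k Q →+* k).mapMatrix B = 1 := by
      ext i i'
      rw [RingHom.mapMatrix_apply, Matrix.map_apply, Matrix.one_apply, ← hA]
      show aug k Q (∑ j, A' j i' • cmp j (e i)) = _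
      rw [map_sum]
      refine Finset.sum_congr rfl fun j _ => ?_
      rw [map_smul, aug_cmp, he, dd_aug, smul_eq_mul, mul_comm]
    rw [h2, Matrix.det_one]
  have h3 : ∀ i, B.det * L i = 0 := by
    have h4 : Matrix.vecMul (Matrix.vecMul L B) B.adjugate = 0 := by
      rw [hLB, Matrix.zero_vecMul]
    rw [Matrix.vecMul_vecMul, Matrix.mul_adjugate] at h4
    intro i
    have h5 := congrFun h4 i
    rw [Matrix.vecMul_smul, Matrix.vecMul_one] at h5
    exact h5
  exact cmp_ext fun i => hQ _ _ hdet (h3 i)

end main

end Vale.Agent.Lib.P174
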