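import Vale.Agent.Lib.P174.Wr

/-! P174: the lifted system and its exponent sums. -/

namespace Vale.Agent.Lib.P174

open Monoid

universe u v

section basics

variable {G : Type u} [Group G] {J : Type v}

theorem eval_inl {H : Type*} [Group H] (ι : G →* H) (h : J → H) (g : G) :
    eval ι h (Coprod.inl g) = ι g := rfl

theorem eval_inr {H : Type*} [Group H] (ι : G →* H) (h : J → H) (j : J) :
    eval ι h (Coprod.inr (FreeGroup.of j)) = h j := by
  unfold eval
  rw [Coprod.lift_apply_inr, FreeGroup.lift_apply_of]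

theorem gf_hom_ext {H : Type*} [Group H] {f f' : GF G J →* H}
    (h1 : ∀ g, f (Coprod.inl g) = f' (Coprod.inl g))
    (h2 : ∀ j, f (Coprod.inr (FreeGroup.of j)) = f' (Coprod.inr (FreeGroup.of j))) : f = f' := by
  apply Coprod.hom_ext
  · ext g; exact h1 g
  · ext j; exact h2 j

theorem eps_inl (R : Type) [CommRing R] (g : G) :
    eps R (Coprod.inl g : GF G J) = 1 := rfl

theorem eps_inr (R : Type) [CommRing R] (j : J) :
    eps R (Coprod.inr (FreeGroup.of j) : GF G J) =
      Multiplicative.ofAdd (Finsupp.single j 1) := by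
  unfold eps
  rw [Coprod.lift_apply_inr, FreeGroup.lift_apply_of]

/-- exponent sums with values in `R` -/
theorem eps_eq (R : Type) [CommRing R] (w : GF G J) (j : J) :
    Multiplicative.toAdd (eps R w) j = ((expo w j : ℤ) : R) := by
  have h : eps R = (AddMonoidHom.toMultiplicative
      (Finsupp.mapRange.addMonoidHom (Int.castAddHom R))).comp (eps ℤ (G := G) (J := J)) := by
    apply gf_hom_ext
    · intro g
      rw [MonoidHom.comp_apply, eps_inl, eps_inl, map_one]
    · intro j
      rw [MonoidHom.comp_apply, eps_inr, eps_inr]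
      apply Multiplicative.toAdd.injective
      simp
  rw [h]
  simp [expo]

end basics

section lift

variable {G : Type u} [Group G] {Q : Type u} [Group Q] {φ : G →* Q} {σ : Q → G}
  (hσ : ∀ s g, φ (σ s) * φ g = φ (σ (s * φ g))) {J : Type v} (f : J → Q)

/-- the lifted words -/
def theta : GF G J →* Wr (GF φ.ker (J × Q)) Q :=
  eval ((Wr.map Coprod.inl).comp (kk hσ)) fun j =>
    ⟨fun s => Coprod.inr (FreeGroup.of (j, s)), f j⟩

theorem theta_r (w : GF G J) : (theta hσ f w).r = eval φ f w := by
  have h : (⟨⟨fun a => a.r, rfl⟩, fun _ _ => rfl⟩ : Wr (GF φ.ker (J × Q)) Q →* Q).comp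
      (theta hσ f) = eval φ f := by
    apply gf_hom_ext
    · intro g; rfl
    · intro j
      rw [MonoidHom.comp_apply, eval_inr]
      unfold theta
      rw [eval_inr]
      rfl
  exact DFunLike.congr_fun h w

/-- evaluation of the lifted words -/
theorem eval_theta {H : Type*} [Group H] (ι : φ.ker →* H) (h : J × Q → H) (w : GF G J) :
    Wr.map (eval ι h) (theta hσ f w) =
      eval ((Wr.map ι).comp (kk hσ)) (fun j => (⟨fun s => h (j, s), f j⟩ : Wr H Q)) w := by
  have e : (Wr.map (eval ι h)).comp (theta hσ f) =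
      eval ((Wr.map ι).comp (kk hσ)) (fun j => (⟨fun s => h (j, s), f j⟩ : Wr H Q)) := by
    apply gf_hom_ext
    · intro g; rfl
    · intro j
      rw [MonoidHom.comp_apply, eval_inr]
      unfold theta
      rw [eval_inr]
      ext s
      · rw [Wr.map_l, eval_inr]
      · rfl
  exact DFunLike.congr_fun e w

/-- a solution of the lifted system gives a solution of the system -/
theorem solvable_of_lift {I : Type*} (w : I → GF G J) (hf : ∀ i, eval φ f (w i) = 1)
    (hs : Solvable (fun p : I × Q => (theta hσ f (w p.1)).l p.2)) : Solvable w := by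
  obtain ⟨H, hH, ι, h, hι, hw⟩ := hs
  refine ⟨Wr H Q, inferInstance, (Wr.map ι).comp (kk hσ), fun j => ⟨fun s => h (j, s), f j⟩,
    ?_, ?_⟩
  · rw [injective_iff_map_eq_one]
    intro g hg
    have hr : φ g = 1 := congrArg Wr.r hg
    refine kk_eq_one hσ (fun s => ?_) hr
    have h1 : ι ((kk hσ g).l s) = 1 := congrFun (congrArg Wr.l hg) s
    exact (map_eq_one_iff ι hι).1 h1
  · intro i
    rw [← eval_theta]
    ext s
    · rw [Wr.map_l]
      exact hw (i, s)
    · rw [Wr.map_r, theta_r, hf]
      rfl

variable (k : Type) [Field k]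

/-- exponent sums of the lifted words -/
noncomputable def dd : GF G J →* Wr (Multiplicative (J × Q →₀ k)) Q :=
  (Wr.map (eps k)).comp (theta hσ f)

theorem dd_inl (g : G) : dd hσ f k (Coprod.inl g) = ⟨fun _ => 1, φ g⟩ := by
  ext s <;> rfl

theorem dd_inr (j : J) : dd hσ f k (Coprod.inr (FreeGroup.of j)) =
    ⟨fun s => Multiplicative.ofAdd (Finsupp.single (j, s) 1), f j⟩ := by
  unfold dd
  rw [MonoidHom.comp_apply]
  unfold theta
  rw [eval_inr]
  ext s
  · rw [Wr.map_l, eps_inr]
  · rfl

/-- translation of the second coordinate -/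
noncomputable def tr (q : Q) : (J × Q →₀ k) →+ (J × Q →₀ k) :=
  Finsupp.mapDomain.addMonoidHom (fun p => (p.1, q * p.2))

/-- equivariance: `T_q` -/
noncomputable def Tq (q : Q) : Wr (Multiplicative (J × Q →₀ k)) Q →*
    Wr (Multiplicative (J × Q →₀ k)) Q where
  toFun a := ⟨fun s => AddMonoidHom.toMultiplicative (tr k q) (a.l (q⁻¹ * s)), a.r⟩
  map_one' := by
    ext s
    · simp [Wr.one_l]
    · rfl
  map_mul' a b := by
    ext s
    · simp only [Wr.mul_l, map_mul, mul_assoc]
    · rfl

theorem Tq_dd (q : Q) (w : GF G J) : Tq k q (dd hσ f k w) = dd hσ f k w := by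
  have h : (Tq k q).comp (dd hσ f k) = dd hσ f k := by
    apply gf_hom_ext
    · intro g
      rw [MonoidHom.comp_apply, dd_inl]
      ext s
      · simp [Tq]
      · rfl
    · intro j
      rw [MonoidHom.comp_apply, dd_inr]
      ext s
      · simp only [Tq, tr, MonoidHom.coe_mk, OneHom.coe_mk]
        apply Multiplicative.toAdd.injective
        simp [Finsupp.mapDomain_single]
      · rfl
  exact DFunLike.congr_fun h w

/-- the row of `(w, s)` is the translate of the row of `(w, 1)` -/
theorem dd_shift (w : GF G J) (s : Q) :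
    Multiplicative.toAdd ((dd hσ f k w).l s) =
      tr k s (Multiplicative.toAdd ((dd hσ f k w).l 1)) := by
  have h := congrArg (fun a : Wr (Multiplicative (J × Q →₀ k)) Q => a.l s) (Tq_dd hσ f k s w)
  simp only [Tq, MonoidHom.coe_mk, OneHom.coe_mk, inv_mul_cancel] at h
  rw [← h]
  rfl

/-- augmentation -/
theorem dd_aug (w : GF G J) (s : Q) :
    Finsupp.mapDomain Prod.fst (Multiplicative.toAdd ((dd hσ f k w).l s)) =
      Multiplicative.toAdd (eps k w) := by
  have h : (Wr.map (AddMonoidHom.toMultiplicative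
      (Finsupp.mapDomain.addMonoidHom Prod.fst : (J × Q →₀ k) →+ (J →₀ k)))).comp
      (dd hσ f k) = Wr.diag (GF G J) (eps k) (eval φ f) := by
    apply gf_hom_ext
    · intro g
      rw [MonoidHom.comp_apply, dd_inl]
      ext s
      · simp [Wr.map_l, Wr.diag, eps_inl]
      · rfl
    · intro j
      rw [MonoidHom.comp_apply, dd_inr]
      ext s
      · rw [Wr.map_l]
        simp only [Wr.diag, MonoidHom.coe_mk, OneHom.coe_mk, eps_inr]
        apply Multiplicative.toAdd.injective
        simp [Finsupp.mapDomain_single]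
      · simp [Wr.map_r, Wr.diag, eval_inr]
  have h2 := congrArg (fun a : Wr (Multiplicative (J →₀ k)) Q => a.l s)
    (DFunLike.congr_fun h w)
  exact h2

end lift

end Vale.Agent.Lib.P174
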