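import Vale.Agent.Lib.P174.Ind
import Vale.Agent.Lib.P174.Comp

/-! P174: closure of Howie's conjecture under extensions. -/

namespace Vale.Agent.Lib.P174

open Monoid

universe u v

section solve

variable {G : Type u} [Group G] {J : Type v} [Fintype J] {K : Type} [Field K] {M : Type u}
  [AddCommGroup M] [Module K M]

theorem eval_comm (φ : G →* Multiplicative M) (f : J → Multiplicative M) (w : GF G J) :
    Multiplicative.toAdd (eval φ f w) = Multiplicative.toAdd (eval φ (fun _ => 1) w) +
      ∑ j, ((expo w j : ℤ) : K) • Multiplicative.toAdd (f j) := by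
  have h : eval φ f = eval φ (fun _ => 1) * (AddMonoidHom.toMultiplicative
      (Finsupp.linearCombination K (fun j => Multiplicative.toAdd (f j))).toAddMonoidHom).comp
      (eps K : GF G J →* Multiplicative (J →₀ K)) := by
    apply gf_hom_ext
    · intro g
      rw [MonoidHom.mul_apply, MonoidHom.comp_apply, eps_inl, map_one, mul_one]
      rfl
    · intro j
      rw [MonoidHom.mul_apply, MonoidHom.comp_apply, eps_inr, eval_inr, eval_inr, one_mul]
      apply Multiplicative.toAdd.injective
      simp
  rw [h, MonoidHom.mul_apply, toAdd_mul]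
  congr 1
  rw [MonoidHom.comp_apply]
  have h2 : Multiplicative.toAdd ((AddMonoidHom.toMultiplicative
      (Finsupp.linearCombination K (fun j => Multiplicative.toAdd (f j))).toAddMonoidHom)
      (eps K w)) = Finsupp.linearCombination K (fun j => Multiplicative.toAdd (f j))
      (Multiplicative.toAdd (eps K w)) := rfl
  rw [h2, Finsupp.linearCombination_apply, Finsupp.sum_fintype]
  · exact Finset.sum_congr rfl fun j _ => by rw [eps_eq]
  · intro j
    exact zero_smul _ _

theorem solve {I : Type*} [Fintype I] [DecidableEq I] (φ : G →* Multiplicative M)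
    (w : I → GF G J) (A' : J → I → K)
    (hA : ∀ i i', ∑ j, ((expo (w i) j : ℤ) : K) * A' j i' = if i = i' then 1 else 0) :
    ∃ f : J → Multiplicative M, ∀ i, eval φ f (w i) = 1 := by
  set c : I → M := fun i => Multiplicative.toAdd (eval φ (fun _ => 1) (w i)) with hc
  refine ⟨fun j => Multiplicative.ofAdd (-∑ i', A' j i' • c i'), fun i => ?_⟩
  apply Multiplicative.toAdd.injective
  rw [eval_comm (K := K), toAdd_one]
  simp only [toAdd_ofAdd, smul_neg, Finset.smul_sum, smul_smul]
  rw [Finset.sum_neg_distrib, Finset.sum_comm]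
  have h1 : ∀ i', ∑ j, (((expo (w i) j : ℤ) : K) * A' j i') • c i' =
      if i = i' then c i' else 0 := by
    intro i'
    rw [← Finset.sum_smul, hA]
    by_cases h : i = i'
    · rw [if_pos h, if_pos h, one_smul]
    · rw [if_neg h, if_neg h, zero_smul]
  rw [Finset.sum_congr rfl fun i' _ => h1 i', Finset.sum_ite_eq]
  simp [hc]

end solve

section linalg

variable {k : Type} [Field k] {m n : ℕ}

theorem right_inv (v : Fin m → Fin n → k) (hv : LinearIndependent k v) :
    ∃ A' : Fin n → Fin m → k, ∀ i i', ∑ j, v i j * A' j i' = if i = i' then 1 else 0 := by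
  have hinj : LinearMap.ker (Fintype.linearCombination k v) = ⊥ := by
    rw [LinearMap.ker_eq_bot']
    intro c hc
    funext i
    exact Fintype.linearIndependent_iff.1 hv c (by simpa [Fintype.linearCombination_apply] using hc) i
  obtain ⟨g, hg⟩ := LinearMap.exists_leftInverse_of_injective _ hinj
  refine ⟨fun j i' => g (Pi.single j 1) i', fun i i' => ?_⟩
  have h1 : g (v i) = Pi.single i 1 := by
    have h2 := LinearMap.congr_fun hg (Pi.single i 1)
    simpa [Fintype.linearCombination_apply_single] using h2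
  have h3 : v i = ∑ j, v i j • (Pi.single j 1 : Fin n → k) := by
    funext j'
    simp [Finset.sum_apply, Pi.single_apply]
  have h4 : g (v i) i' = ∑ j, v i j * g (Pi.single j 1) i' := by
    conv_lhs => rw [h3, map_sum]
    rw [Finset.sum_apply]
    exact Finset.sum_congr rfl fun j _ => by rw [map_smul, Pi.smul_apply, smul_eq_mul]
  rw [← h4, h1, Pi.single_apply]
  by_cases h : i = i'
  · rw [if_pos h, if_pos h.symm]
  · rw [if_neg h, if_neg (Ne.symm h)]

theorem indep_rat (a : Fin m → Fin n → ℤ)
    (h : LinearIndependent k (fun i => fun j => ((a i j : ℤ) : k))) :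
    LinearIndependent ℚ (fun i => fun j => ((a i j : ℤ) : ℚ)) := by
  rw [← LinearIndependent.iff_fractionRing (R := ℤ) (K := ℚ), Fintype.linearIndependent_iff]
  intro c hc
  by_contra hne
  push Not at hne
  obtain ⟨i0, hi0⟩ := hne
  obtain ⟨c', hc', hgcd⟩ := Finset.extract_gcd c (⟨i0, Finset.mem_univ i0⟩ :
    (Finset.univ : Finset (Fin m)).Nonempty)
  set d := Finset.univ.gcd c with hd
  have hd0 : d ≠ 0 := by
    intro h0
    exact hi0 (by rw [hc' i0 (Finset.mem_univ _), h0, zero_mul])
  have h1 : ∀ j, ∑ i, c' i * a i j = 0 := by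
    intro j
    have h2 := congrFun hc j
    rw [Finset.sum_apply] at h2
    simp only [Pi.smul_apply, zsmul_eq_mul, Pi.zero_apply] at h2
    have h3 : ((∑ i, c i * a i j : ℤ) : ℚ) = 0 := by push_cast; exact h2
    have h4 : ∑ i, c i * a i j = 0 := by exact_mod_cast h3
    have h5 : d * ∑ i, c' i * a i j = 0 := by
      rw [Finset.mul_sum, ← h4]
      exact Finset.sum_congr rfl fun i _ => by
        rw [hc' i (Finset.mem_univ _)]; ring
    exact (mul_eq_zero.1 h5).resolve_left hd0
  have h6 : ∀ i, ((c' i : ℤ) : k) = 0 := by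
    refine Fintype.linearIndependent_iff.1 h (fun i => ((c' i : ℤ) : k)) ?_
    funext j
    rw [Finset.sum_apply]
    simp only [Pi.smul_apply, smul_eq_mul, Pi.zero_apply]
    have h7 := congrArg (fun z : ℤ => (z : k)) (h1 j)
    push_cast at h7
    exact h7
  have h8 : ((ringChar k : ℕ) : ℤ) ∣ Finset.univ.gcd c' :=
    Finset.dvd_gcd fun i _ => (CharP.intCast_eq_zero_iff k (ringChar k) _).1 (h6 i)
  rw [hgcd] at h8
  have h9 : ringChar k = 1 := by
    have h10 : ringChar k ∣ 1 := by exact_mod_cast h8
    exact Nat.dvd_one.1 h10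
  exact CharP.char_ne_one k (ringChar k) h9

end linalg

section closure

variable {k : Type} [Field k]

theorem howie_of_hom {K : Type} [Field K] {M : Type u} [AddCommGroup M] [Module K M]
    (hstar : Star k (Multiplicative M))
    (hK : ∀ (m n : ℕ) (a : Fin m → Fin n → ℤ),
      LinearIndependent k (fun i => fun j => ((a i j : ℤ) : k)) →
      LinearIndependent K (fun i => fun j => ((a i j : ℤ) : K)))
    {G : Type u} [Group G] (φ : G →* Multiplicative M) (hN : Howie k φ.ker) : Howie k G := by
  intro m n w hw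
  obtain ⟨A, hA⟩ := right_inv _ hw
  obtain ⟨A', hA'⟩ := right_inv _ (hK m n (fun i j => expo (w i) j) hw)
  obtain ⟨f, hf⟩ := solve φ w A' hA'
  obtain ⟨σ, hσ⟩ := exists_sec φ
  apply solvable_of_lift hσ f w hf
  apply solvable_all hN
  refine lift_indep hσ f w hstar A ?_
  intro i i'
  rw [← hA]
  exact Finset.sum_congr rfl fun j _ => by rw [eps_eq]

/-- transport along an isomorphism -/
theorem howie_equiv {A B : Type u} [Group A] [Group B] (e : A ≃* B) (hA : Howie k A) :
    Howie k B := by
  intro m n w hw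
  have h1 : ∀ x : GF B (Fin n), eps ℤ (Coprod.map e.symm.toMonoidHom (MonoidHom.id _) x :
      GF A (Fin n)) = eps ℤ x := by
    intro x
    have h : (eps ℤ).comp (Coprod.map e.symm.toMonoidHom (MonoidHom.id (FreeGroup (Fin n)))) =
        (eps ℤ : GF B (Fin n) →* _) := by
      apply gf_hom_ext
      · intro g; rfl
      · intro j; rfl
    exact DFunLike.congr_fun h x
  obtain ⟨H, hH, ι, h, hι, hs⟩ := hA m n
    (fun i => Coprod.map e.symm.toMonoidHom (MonoidHom.id _) (w i)) (by
      unfold Nonsing expo
      simp only [h1]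
      exact hw)
  refine ⟨H, hH, ι.comp e.symm.toMonoidHom, h, hι.comp e.symm.injective, fun i => ?_⟩
  have h2 : (eval ι h).comp (Coprod.map e.symm.toMonoidHom (MonoidHom.id (FreeGroup (Fin n)))) =
      eval (ι.comp e.symm.toMonoidHom) h := by
    apply gf_hom_ext
    · intro g; rfl
    · intro j; rfl
  rw [← h2]
  exact hs i

/-- residual closure -/
theorem howie_residual {G : Type u} [Group G]
    (hG : ∀ g : G, g ≠ 1 → ∃ (K : Subgroup G) (_ : K.Normal), g ∉ K ∧ Howie k (G ⧸ K)) :
    Howie k G := by
  intro m n w hw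
  choose K hK hgK hhK using fun g : {g : G // g ≠ 1} => hG g.1 g.2
  have h1 : ∀ (g : {g : G // g ≠ 1}) (x : GF G (Fin n)),
      eps ℤ (Coprod.map (QuotientGroup.mk' (K g)) (MonoidHom.id _) x :
      GF (G ⧸ K g) (Fin n)) = eps ℤ x := by
    intro g x
    have h : (eps ℤ).comp (Coprod.map (QuotientGroup.mk' (K g))
        (MonoidHom.id (FreeGroup (Fin n)))) = (eps ℤ : GF G (Fin n) →* _) := by
      apply gf_hom_ext
      · intro g; rfl
      · intro j; rfl
    exact DFunLike.congr_fun h x
  have h2 : ∀ g : {g : G // g ≠ 1}, Solvable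
      (fun i => (Coprod.map (QuotientGroup.mk' (K g)) (MonoidHom.id _) (w i) :
        GF (G ⧸ K g) (Fin n))) := by
    intro g
    apply hhK g
    unfold Nonsing expo
    simp only [h1]
    exact hw
  choose H hH ι h hι hs using h2
  refine ⟨∀ g, H g, inferInstance, MonoidHom.pi fun g => (ι g).comp (QuotientGroup.mk' (K g)),
    fun j g => h g j, ?_, ?_⟩
  · rw [injective_iff_map_eq_one]
    intro x hx
    by_contra hne
    have h3 := congrFun hx ⟨x, hne⟩
    have h4 : ι ⟨x, hne⟩ (QuotientGroup.mk' (K ⟨x, hne⟩) x) = 1 := h3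
    have h5 := (map_eq_one_iff _ (hι ⟨x, hne⟩)).1 h4
    exact hgK ⟨x, hne⟩ ((QuotientGroup.eq_one_iff _).1 h5)
  · intro i
    funext g
    have h6 : (Pi.evalMonoidHom H g).comp (eval (MonoidHom.pi fun g =>
        (ι g).comp (QuotientGroup.mk' (K g))) (fun j g => h g j)) =
        (eval (ι g) (h g)).comp (Coprod.map (QuotientGroup.mk' (K g))
          (MonoidHom.id (FreeGroup (Fin n)))) := by
      apply gf_hom_ext
      · intro x; rfl
      · intro j
        rw [MonoidHom.comp_apply, MonoidHom.comp_apply, eval_inr, Coprod.map_apply_inr,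
          MonoidHom.id_apply, eval_inr]
        rfl
    have h7 := DFunLike.congr_fun h6 (w i)
    exact h7.trans (hs g i)

end closure

end Vale.Agent.Lib.P174
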