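import Vale.Agent.Lib.P174.Defs

/-! P174: unrestricted wreath products and the lifted system. -/

namespace Vale.Agent.Lib.P174

open Monoid

universe u v

/-- unrestricted wreath product -/
@[ext] structure Wr (H : Type*) (Q : Type*) where
  l : Q → H
  r : Q

namespace Wr

variable {H H' Q : Type*} [Group H] [Group H'] [Group Q]

instance : Mul (Wr H Q) := ⟨fun a b => ⟨fun s => a.l s * b.l (s * a.r), a.r * b.r⟩⟩
instance : One (Wr H Q) := ⟨⟨fun _ => 1, 1⟩⟩
instance : Inv (Wr H Q) := ⟨fun a => ⟨fun s => (a.l (s * a.r⁻¹))⁻¹, a.r⁻¹⟩⟩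

theorem mul_l (a b : Wr H Q) (s : Q) : (a * b).l s = a.l s * b.l (s * a.r) := rfl
theorem mul_r (a b : Wr H Q) : (a * b).r = a.r * b.r := rfl
theorem one_l (s : Q) : (1 : Wr H Q).l s = 1 := rfl
theorem one_r : (1 : Wr H Q).r = 1 := rfl
theorem inv_l (a : Wr H Q) (s : Q) : a⁻¹.l s = (a.l (s * a.r⁻¹))⁻¹ := rfl
theorem inv_r (a : Wr H Q) : a⁻¹.r = a.r⁻¹ := rfl

instance : Group (Wr H Q) where
  mul_assoc a b c := by
    ext s
    · simp only [mul_l, mul_r, mul_assoc]
    · simp only [mul_r, mul_assoc]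
  one_mul a := by
    ext s
    · simp only [mul_l, one_l, one_r, one_mul, mul_one]
    · simp only [mul_r, one_r, one_mul]
  mul_one a := by
    ext s
    · simp only [mul_l, one_l, mul_one]
    · simp only [mul_r, one_r, mul_one]
  inv_mul_cancel a := by
    ext s
    · simp only [mul_l, inv_l, inv_r, one_l, inv_mul_cancel]
    · simp only [mul_r, inv_r, one_r, inv_mul_cancel]

/-- functoriality in the base group -/
def map (f : H →* H') : Wr H Q →* Wr H' Q where
  toFun a := ⟨fun s => f (a.l s), a.r⟩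
  map_one' := by ext s <;> simp [one_l, one_r]
  map_mul' a b := by ext s <;> simp [mul_l, mul_r]

theorem map_l (f : H →* H') (a : Wr H Q) (s : Q) : (map f a).l s = f (a.l s) := rfl
theorem map_r (f : H →* H') (a : Wr H Q) : (map f a).r = a.r := rfl

/-- diagonal copies -/
def diag (G : Type*) [Group G] (f : G →* H) (φ : G →* Q) : G →* Wr H Q where
  toFun g := ⟨fun _ => f g, φ g⟩
  map_one' := by ext s <;> simp [one_l, one_r]
  map_mul' a b := by ext s <;> simp [mul_l, mul_r]

end Wr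

section KK

variable {G : Type u} [Group G] {Q : Type u} [Group Q] (φ : G →* Q)

theorem exists_sec : ∃ σ : Q → G, ∀ s g, φ (σ s) * φ g = φ (σ (s * φ g)) := by
  classical
  have h : ∀ s : Q, ∃ a : G, φ a = ((QuotientGroup.mk s : Q ⧸ φ.range).out)⁻¹ * s := by
    intro s
    have h1 : (QuotientGroup.mk ((QuotientGroup.mk s : Q ⧸ φ.range).out) : Q ⧸ φ.range) =
        QuotientGroup.mk s := Quotient.out_eq' _
    exact QuotientGroup.eq.1 h1
  choose σ hσ using h
  refine ⟨σ, fun s g => ?_⟩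
  have h2 : (QuotientGroup.mk (s * φ g) : Q ⧸ φ.range) = QuotientGroup.mk s := by
    rw [eq_comm, QuotientGroup.eq]
    exact ⟨g, by group⟩
  rw [hσ, hσ, h2]
  group

variable {φ} {σ : Q → G} (hσ : ∀ s g, φ (σ s) * φ g = φ (σ (s * φ g)))

/-- the cocycle -/
def coc (s : Q) (g : G) : φ.ker :=
  ⟨σ s * g * (σ (s * φ g))⁻¹, by
    rw [MonoidHom.mem_ker, map_mul, map_mul, map_inv, ← hσ, mul_inv_cancel]⟩

/-- Kaloujnine-Krasner embedding -/
def kk : G →* Wr φ.ker Q where
  toFun g := ⟨fun s => coc hσ s g, φ g⟩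
  map_one' := by
    ext s
    · simp [coc, Wr.one_l]
    · simp [Wr.one_r]
  map_mul' a b := by
    ext s
    · simp only [coc, Wr.mul_l, Subgroup.coe_mul, map_mul]
      group
    · simp [Wr.mul_r]

theorem kk_l (g : G) (s : Q) : (kk hσ g).l s = coc hσ s g := rfl
theorem kk_r (g : G) : (kk hσ g).r = φ g := rfl

theorem kk_eq_one {g : G} (h : ∀ s, (kk hσ g).l s = 1) (hr : φ g = 1) : g = 1 := by
  have h1 := congrArg Subtype.val (h 1)
  rw [kk_l] at h1
  simp only [coc, hr, mul_one, Subgroup.coe_one] at h1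
  have h2 : σ 1 * g = σ 1 := by
    rw [mul_inv_eq_one] at h1
    exact h1
  exact mul_eq_left.1 h2

end KK

end Vale.Agent.Lib.P174
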